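import Vale.Agent.Lib.P040K.KeyMain
import Vale.Agent.Lib.P040K.Tight
import Vale.Agent.Lib.P040M.ZarDrawing
import Vale.Agent.Lib.P040Z.ZarSimple
import Vale.Agent.Lib.P040Z.Rect
import Vale.Agent.Lib.P040Z.Top
import Vale.Agent.Lib.P040Z.Core72

/-!
Zarankiewicz's bound for all `x`-monotone drawings of `K_{m,n}` in which two edges at one red vertex
meet only at that vertex, wherever the vertices lie along the `x`-axis; hence for all straight-line
drawings. Also for all `x`-monotone drawings with the blue vertices forming a block and for all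
two-page drawings. It is attained.
-/

namespace Vale.Agent.Results.P040.A000000_all_mono

open Vale.Agent.Lib.P040 Vale.Agent.Lib.P040M Vale.Agent.Lib.P040Z

/-- `x`-monotone drawings whose edges at one red vertex meet only there: the bound. Straight-line
drawings: the bound. `x`-monotone drawings with the blue vertices forming a block: the bound. A drawing
in both `x`-monotone classes attains it. Two-page drawings: the bound, attained. -/
theorem result :
    (∀ m n : ℕ, (∀ D : MonoDrawing m n, StarSimple D → zar m * zar n ≤ D.meetingPairs) ∧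
      (∀ (R : Fin m → ℝ × ℝ) (B : Fin n → ℝ × ℝ), (∀ r b, R r ≠ B b) →
        (∀ r b s, s ≠ r → R s ∉ segment ℝ (R r) (B b)) →
        (∀ r b c, c ≠ b → B c ∉ segment ℝ (R r) (B b)) → zar m * zar n ≤ rectCross R B) ∧
      (∀ D : MonoDrawing m n, D.BlueBlock → zar m * zar n ≤ D.meetingPairs) ∧
      ∃ D : MonoDrawing m n, D.BlueBlock ∧ StarSimple D ∧ D.meetingPairs = zar m * zar n) ∧
    (∀ m n : ℕ, (∀ D : TwoPageDrawing m n, zar m * zar n ≤ D.crossings) ∧
      ∃ D : TwoPageDrawing m n, D.crossings = zar m * zar n) := by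
  have hcore : ∀ (k : ℕ) (T T' : Star k), T.J ≤ T'.J → ∀ A : Fin (2 * k + 1) → Bool,
      agree T T' ≤ ((Finset.univ : Finset (Fin (2 * k + 1) × Fin (2 * k + 1))).filter fun p =>
        p.1 ≠ p.2 ∧ forced T T' A p.1 p.2).card :=
    fun _ T T' h A => Core72.agree_le_forced T T' h A
  exact ⟨fun m n => ⟨fun D hS => top_of_core hcore D hS,
      fun R B hRB hR hB => rectilinear_bound_of (fun D hS => top_of_core hcore D hS) R B hRB hR hB,
      fun D hD => D.zar_le_meetingPairs hD,
      ⟨zarDrawing m n, zarDrawing_blueBlock m n, zarDrawing_starSimple m n,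
        zarDrawing_meetingPairs m n⟩⟩,
    fun m n => ⟨fun D => Vale.Agent.Lib.P040K.two_page_all m n D,
      ⟨Vale.Agent.Lib.P040K.zDraw m n,
        le_antisymm (Vale.Agent.Lib.P040K.zDraw_crossings_le m n)
          (Vale.Agent.Lib.P040K.two_page_all m n _)⟩⟩⟩

end Vale.Agent.Results.P040.A000000_all_mono
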