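import Vale.Agent.Lib.P040K.KeyMain
import Vale.Agent.Lib.P040K.Tight
import Vale.Agent.Lib.P040M.ZarDrawing

/-!
Zarankiewicz's bound, attained, on two classes of drawings of `K_{m,n}`: all two-page drawings, and
all `x`-monotone drawings in which no red vertex lies between two blue ones.
-/

namespace Vale.Agent.Results.P040.A000000_master

open Vale.Agent.Lib.P040 Vale.Agent.Lib.P040M

/-- Two-page drawings: the bound, attained. `x`-monotone drawings with the blue vertices forming a
block: the bound, attained. -/
theorem result :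
    (∀ m n : ℕ, (∀ D : TwoPageDrawing m n, zar m * zar n ≤ D.crossings) ∧
      ∃ D : TwoPageDrawing m n, D.crossings = zar m * zar n) ∧
    (∀ m n : ℕ, (∀ D : MonoDrawing m n, D.BlueBlock → zar m * zar n ≤ D.meetingPairs) ∧
      ∃ D : MonoDrawing m n, D.BlueBlock ∧ D.meetingPairs = zar m * zar n) :=
  ⟨fun m n => ⟨fun D => Vale.Agent.Lib.P040K.two_page_all m n D,
      ⟨Vale.Agent.Lib.P040K.zDraw m n,
        le_antisymm (Vale.Agent.Lib.P040K.zDraw_crossings_le m n)
          (Vale.Agent.Lib.P040K.two_page_all m n _)⟩⟩,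
    fun m n => ⟨fun D hD => D.zar_le_meetingPairs hD,
      ⟨zarDrawing m n, zarDrawing_blueBlock m n, zarDrawing_meetingPairs m n⟩⟩⟩

end Vale.Agent.Results.P040.A000000_master
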