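import Vale.Agent.Lib.P040M.Model

/-!
Every `x`-monotone drawing of `K_{m,n}` with all red vertices to the left of all blue vertices has
at least `d_m d_n` pairs of vertex-disjoint edges with a common point.
-/

namespace Vale.Agent.Results.P040.A000_mono_separated

open Vale.Agent.Lib.P040 Vale.Agent.Lib.P040M

theorem result (m n : ℕ) (D : MonoSepDrawing m n) : zar m * zar n ≤ D.meetingPairs :=
  D.zar_le_meetingPairs

end Vale.Agent.Results.P040.A000_mono_separated
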