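import Vale.Agent.Lib.P040K.KeyMain
import Vale.Agent.Lib.P040K.Tight

/-!
The two-page crossing number of `K_{m,n}` is exactly `d_m d_n`, for all `m` and `n`.
-/

namespace Vale.Agent.Results.P040.A00_two_page_exact

open Vale.Agent.Lib.P040

/-- For all `m`, `n`: every two-page drawing of `K_{m,n}` has at least `d_m d_n` crossings, and some
two-page drawing has exactly `d_m d_n` crossings. -/
theorem result (m n : ℕ) :
    (∀ D : TwoPageDrawing m n, zar m * zar n ≤ D.crossings) ∧
      ∃ D : TwoPageDrawing m n, D.crossings = zar m * zar n :=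
  ⟨fun D => Vale.Agent.Lib.P040K.two_page_all m n D,
    ⟨Vale.Agent.Lib.P040K.zDraw m n,
      le_antisymm (Vale.Agent.Lib.P040K.zDraw_crossings_le m n)
        (Vale.Agent.Lib.P040K.two_page_all m n _)⟩⟩

end Vale.Agent.Results.P040.A00_two_page_exact
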