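import Vale.Agent.Lib.P040K.KeyMain

/-!
Zarankiewicz's bound for two-page drawings of `K_{m,n}`, for all `m` and `n`.
-/

namespace Vale.Agent.Results.P040.A0_two_page_all

open Vale.Agent.Lib.P040

/-- Every two-page drawing of `K_{m,n}` has at least `d_m d_n` crossings, for all `m` and `n`. -/
theorem result (m n : ℕ) (D : TwoPageDrawing m n) : zar m * zar n ≤ D.crossings :=
  Vale.Agent.Lib.P040K.two_page_all m n D

end Vale.Agent.Results.P040.A0_two_page_all
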