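import Vale.Agent.Lib.P040.TwoPageT7
import Vale.Agent.Lib.P040.TwoPageDel

/-!
Zarankiewicz's bound for two-page drawings of `K_{m,7}` and `K_{m,8}`, for every `m`.
-/

namespace Vale.Agent.Results.P040.A_two_page

open Vale.Agent.Lib.P040

/-- Every two-page drawing of `K_{m,7}` or of `K_{m,8}` has at least `d_m d_7`, resp. `d_m d_8`,
crossings, for every number `m` of red vertices. -/
theorem result (m : ℕ) :
    (∀ D : TwoPageDrawing m 7, zar m * zar 7 ≤ D.crossings) ∧
    (∀ D : TwoPageDrawing m 8, zar m * zar 8 ≤ D.crossings) := by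
  have h7 : zar 7 = 9 := by decide
  have h8 : zar 8 = 12 := by decide
  refine ⟨fun D => ?_, fun D => ?_⟩
  · have := T7.bound D
    rw [h7]; omega
  · have := bound_succ (fun D' : TwoPageDrawing m 7 => T7.bound D') D
    rw [h8]
    norm_num at this
    omega

end Vale.Agent.Results.P040.A_two_page
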