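import Vale.Agent.Lib.P040.TwoPageT3
import Vale.Agent.Lib.P040.TwoPageT5
import Vale.Agent.Lib.P040.TwoPageT7
import Vale.Agent.Lib.P040.TwoPageT9
import Vale.Agent.Lib.P040.TwoPageDel

/-!
Zarankiewicz's bound for two-page drawings of `K_{m,n}`, for every `m` and every `n ≤ 10`.
-/

namespace Vale.Agent.Results.P040.A_two_page_le10

open Vale.Agent.Lib.P040

/-- Every two-page drawing of `K_{m,n}` with `n ≤ 10` has at least `d_m d_n` crossings, for every
number `m` of red vertices. -/
theorem result (m n : ℕ) (hn : n ≤ 10) (D : TwoPageDrawing m n) :
    zar m * zar n ≤ D.crossings := by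
  revert D
  interval_cases n
  · intro D
    have h : zar 0 = 0 := by decide
    rw [h]; simp
  · intro D
    have h : zar 1 = 0 := by decide
    rw [h]; simp
  · intro D
    have h : zar 2 = 0 := by decide
    rw [h]; simp
  · intro D
    have h : zar 3 = 1 := by decide
    have := T3.bound D
    rw [h]; omega
  · intro D
    have h : zar 4 = 2 := by decide
    have := bound_succ (fun D' : TwoPageDrawing m 3 => T3.bound D') D
    rw [h]
    norm_num at this
    omega
  · intro D
    have h : zar 5 = 4 := by decide
    have := T5.bound D
    rw [h]; omega
  · intro D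
    have h : zar 6 = 6 := by decide
    have := bound_succ (fun D' : TwoPageDrawing m 5 => T5.bound D') D
    rw [h]
    norm_num at this
    omega
  · intro D
    have h : zar 7 = 9 := by decide
    have := T7.bound D
    rw [h]; omega
  · intro D
    have h : zar 8 = 12 := by decide
    have := bound_succ (fun D' : TwoPageDrawing m 7 => T7.bound D') D
    rw [h]
    norm_num at this
    omega
  · intro D
    have h : zar 9 = 16 := by decide
    have := T9.bound D
    rw [h]; omega
  · intro D
    have h : zar 10 = 20 := by decide
    have := bound_succ (fun D' : TwoPageDrawing m 9 => T9.bound D') D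
    rw [h]
    norm_num at this
    omega

end Vale.Agent.Results.P040.A_two_page_le10
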